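import Vale.Agent.P291.Bdl.B2

namespace Vale.Agent.Results.P291.AllQuivers

open Vale.Agent.P291.T

theorem result (D : QData) (K L : Type) [Field K] [Algebra ℂ K] [CommRing L] [Algebra K L]
    (x : B D → K) (y : Fin D.rk → K) (hxy : AlgebraicIndependent ℂ (Sum.elim x y))
    (u : (B D → ℤ) → L) (hu : ∀ l l', u (l + l') = u l * u l') (hi : LinearIndependent K u)
    (hs : Submodule.span K (Set.range u) = ⊤)
    (ν : D.I → ℤ) (hν : ∀ l, Min D l → l ≠ 0 → wt D ν l ≠ 0) :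
    (∀ a ∈ coulomb D x y u, ∃ r ∈ R D x y, a - algebraMap K L r ∈ fixI D x y u ν) ∧
    (∀ r ∈ R D x y, algebraMap K L r ∈ fixI D x y u ν →
      r ∈ kerH D x y ν ∧ algebraMap K L r ∈ quad D x y u) ∧
    ((∀ a, D.v (D.tgt a) ≤ 1) →
      ∀ r ∈ R D x y, algebraMap K L r ∈ fixI D x y u ν ↔ r ∈ quad D x y fun _ => (1 : K)) :=
  main D x y u ν hxy hu hi hs hν

end Vale.Agent.Results.P291.AllQuivers
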